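import Vale.Agent.N254.LC
import Vale.Agent.P254Z.Eq.Approx

/-! P254, functional form: regular potentials approximate every log-concave density. -/

set_option linter.all false

open MeasureTheory Set Filter Topology Metric Matrix
open Vale.Agent.P254 Vale.Agent.P254.R304
open Vale.Agent.P254.H375 hiding EE GG
open Vale.Agent.P227.M (Reg hess qf Ex E)
open Vale.Agent.P227.M.Lap (lap contDiff_log_lap line1 line2)
open Vale.Agent.P254.S5.R669

namespace Vale.Agent.N254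

variable {n : ℕ} {f : (Fin n → ℝ) → ℝ} {K : Set (Fin n → ℝ)} {ε m : ℝ}

/-- the measure with density `f` -/
noncomputable def nu (f : (Fin n → ℝ) → ℝ) : Measure (Fin n → ℝ) :=
  volume.withDensity fun x => ENNReal.ofReal (f x)

theorem nu_fin (h : Nice f) : IsFiniteMeasure (nu f) :=
  isFiniteMeasure_withDensity_ofReal (integrable_of_one h.one).2

/-- the Gaussian kernel -/
noncomputable def kr (ε : ℝ) (x y : Fin n → ℝ) : ℝ := Real.exp (-(1 / (2 * ε)) * ((x - y) ⬝ᵥ (x - y)))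

theorem kr_cont (ε : ℝ) (x : Fin n → ℝ) : Continuous (kr ε x) := by
  unfold kr dotProduct
  fun_prop

theorem kr_le (hε : 0 < ε) (x y : Fin n → ℝ) : kr ε x y ≤ 1 := by
  unfold kr
  rw [Real.exp_le_one_iff]
  have h1 := Fr.dot_self_nonneg (x - y)
  have h2 : 0 < 1 / (2 * ε) := by positivity
  nlinarith

/-- the heat flow of `f` restricted to `K` -/
noncomputable def gf (f : (Fin n → ℝ) → ℝ) (K : Set (Fin n → ℝ)) (ε : ℝ) (x : Fin n → ℝ) : ℝ :=
  ∫ y, K.indicator (fun y => kr ε x y * f y) y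

theorem gf_int (h : Nice f) (hK : MeasurableSet K) (hε : 0 < ε) (x : Fin n → ℝ) :
    Integrable (K.indicator fun y => kr ε x y * f y) := by
  refine Integrable.indicator ?_ hK
  refine (integrable_of_one h.one).bdd_mul (c := 1) (kr_cont ε x).aestronglyMeasurable
    (ae_of_all _ fun y => ?_)
  rw [Real.norm_eq_abs, abs_of_pos (by unfold kr; positivity)]
  exact kr_le hε x y

theorem gf_nn (h : Nice f) (x y : Fin n → ℝ) : 0 ≤ K.indicator (fun y => kr ε x y * f y) y :=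
  indicator_nonneg (fun y _ => mul_nonneg (Real.exp_pos _).le (h.lc.1 y)) y

theorem gf_pos (h : Nice f) (hK : MeasurableSet K) (hε : 0 < ε) {U : Set (Fin n → ℝ)}
    (hU : IsOpen U) (hne : U.Nonempty) (hUK : U ⊆ K) (hp : ∀ y ∈ U, 0 < f y) (x : Fin n → ℝ) :
    0 < gf f K ε x := by
  unfold gf
  rw [integral_pos_iff_support_of_nonneg (gf_nn h x) (gf_int h hK hε x)]
  refine (hU.measure_pos _ hne).trans_le (measure_mono fun y hy => ?_)
  rw [Function.mem_support, indicator_of_mem (hUK hy)]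
  exact (mul_pos (Real.exp_pos _) (hp y hy)).ne'

theorem lc_mid (h : LogConcave f) (y y' : Fin n → ℝ) :
    f y * f y' ≤ f ((1 / 2 : ℝ) • y + (1 / 2 : ℝ) • y') ^ 2 := by
  have h1 := h.2 y y' (1 / 2) ⟨by norm_num, by norm_num⟩
  rw [show (1 : ℝ) - 1 / 2 = 1 / 2 by norm_num, ← Real.mul_rpow (h.1 y) (h.1 y'),
    ← Real.sqrt_eq_rpow] at h1
  have h2 := mul_nonneg (h.1 y) (h.1 y')
  calc f y * f y' = Real.sqrt (f y * f y') ^ 2 := (Real.sq_sqrt h2).symm
    _ ≤ _ := pow_le_pow_left₀ (Real.sqrt_nonneg _) h1 2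

theorem kr_mid (hε : 0 < ε) (x x' y y' : Fin n → ℝ) :
    kr ε x y * kr ε x' y' ≤ kr ε ((1 / 2 : ℝ) • x + (1 / 2 : ℝ) • x')
      ((1 / 2 : ℝ) • y + (1 / 2 : ℝ) • y') ^ 2 := by
  unfold kr
  rw [← Real.exp_add, ← Real.exp_nat_mul]
  refine Real.exp_le_exp.2 ?_
  have h1 := Fr.dot_mid (x - y) (x' - y')
  have h2 : (1 / 2 : ℝ) • (x - y) + (1 / 2 : ℝ) • (x' - y')
      = (1 / 2 : ℝ) • x + (1 / 2 : ℝ) • x' - ((1 / 2 : ℝ) • y + (1 / 2 : ℝ) • y') := by
    rw [smul_sub, smul_sub]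
    abel
  rw [h2] at h1
  have h3 : 0 < 1 / (2 * ε) := by positivity
  have h4 := mul_le_mul_of_nonneg_left h1 h3.le
  push_cast
  linarith

theorem gf_mid (h : Nice f) (hK : MeasurableSet K) (hc : Convex ℝ K) (hε : 0 < ε)
    (x x' : Fin n → ℝ) :
    gf f K ε x * gf f K ε x' ≤ gf f K ε ((1 / 2 : ℝ) • x + (1 / 2 : ℝ) • x') ^ 2 := by
  have m1 : ∀ x, Measurable (K.indicator fun y => kr ε x y * f y) := fun x =>
    ((kr_cont ε x).measurable.mul h.meas).indicator hK
  refine Fr.pl_half (m1 _) (m1 _) (m1 _) (gf_nn h _) (gf_nn h _) (gf_nn h _)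
    (gf_int h hK hε _) (gf_int h hK hε _) (gf_int h hK hε _) fun y y' => ?_
  by_cases hy : y ∈ K
  · by_cases hy' : y' ∈ K
    · have hm : (1 / 2 : ℝ) • y + (1 / 2 : ℝ) • y' ∈ K :=
        hc hy hy' (by norm_num) (by norm_num) (by norm_num)
      rw [indicator_of_mem hy, indicator_of_mem hy', indicator_of_mem hm, mul_pow, mul_mul_mul_comm]
      exact mul_le_mul (kr_mid hε x x' y y') (lc_mid h.lc y y') (mul_nonneg (h.lc.1 _) (h.lc.1 _))
        (sq_nonneg _)
    · rw [indicator_of_notMem hy', mul_zero]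
      positivity
  · rw [indicator_of_notMem hy, zero_mul]
    positivity

/-- the Laplace transform -/
noncomputable def LF (f : (Fin n → ℝ) → ℝ) (K : Set (Fin n → ℝ)) (ε : ℝ) (x : EE n) : ℝ :=
  lap (KP n ε) ((nu f).restrict K) (dn ε) x

theorem gf_eq (h : Nice f) (hK : MeasurableSet K) (hε : 0 < ε) (x : EE n) :
    gf f K ε x.ofLp = Real.exp (-(1 / (2 * ε)) * (x.ofLp ⬝ᵥ x.ofLp)) * LF f K ε x := by
  unfold gf LF lap nu
  rw [setIntegral_withDensity_eq_setIntegral_toReal_smul h.meas.ennreal_ofReal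
    (ae_of_all _ fun _ => ENNReal.ofReal_lt_top) _ hK, ← integral_const_mul, integral_indicator hK]
  refine integral_congr_ae (Eventually.of_forall fun y => ?_)
  simp only [KP_apply, dn, smul_eq_mul, kr]
  rw [ENNReal.toReal_ofReal (h.lc.1 y), ← Real.exp_add, mul_left_comm, ← Real.exp_add, mul_comm]
  congr 2
  have h1 : (x.ofLp - y) ⬝ᵥ (x.ofLp - y) = x.ofLp ⬝ᵥ x.ofLp - 2 * (y ⬝ᵥ x.ofLp) + y ⬝ᵥ y := by
    rw [sub_dotProduct, dotProduct_sub, dotProduct_sub, dotProduct_comm x.ofLp y]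
    ring
  rw [h1]
  field_simp
  ring

section reg

variable (h : Nice f) (hK : IsCompact K) (hc : Convex ℝ K) (hε : 0 < ε)
  (hp : ∀ x, 0 < gf f K ε x)

include h hK hε hp

theorem LF_pos (x : EE n) : 0 < LF f K ε x := by
  have h1 := hp x.ofLp
  rw [gf_eq h hK.measurableSet hε] at h1
  exact (mul_pos_iff_of_pos_left (Real.exp_pos _)).1 h1

theorem contDiff_logLF : ContDiff ℝ (⊤ : ℕ∞) (fun x => Real.log (LF f K ε x)) := by
  haveI := nu_fin h
  exact contDiff_log_lap (expo_compact hK (cont_dn ε)) fun x => LF_pos h hK hε hp x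

theorem bdd_logLF (k : ℕ) (hk : 2 ≤ k) :
    ∃ C : ℝ, ∀ y, ‖iteratedFDeriv ℝ k (fun x : EE n => Real.log (LF f K ε x)) y‖ ≤ C := by
  haveI := nu_fin h
  exact log_lap_bdd hK (KP n ε) (cont_dn ε) (fun _ => (Real.exp_pos _).le)
    (fun x => LF_pos h hK hε hp x) k hk

end reg

/-- `-log gf` -/
noncomputable def FF (f : (Fin n → ℝ) → ℝ) (K : Set (Fin n → ℝ)) (ε : ℝ) (x : EE n) : ℝ :=
  qd (bil ((1 / ε) • (1 : Matrix (Fin n) (Fin n) ℝ))) 0 x + -Real.log (LF f K ε x)

/-- the regular potential -/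
noncomputable def pt (f : (Fin n → ℝ) → ℝ) (K : Set (Fin n → ℝ)) (ε m : ℝ) (x : EE n) : ℝ :=
  FF f K ε x + qd (bil (m • (1 : Matrix (Fin n) (Fin n) ℝ))) 0 x

section reg

variable (h : Nice f) (hK : IsCompact K) (hε : 0 < ε) (hp : ∀ x, 0 < gf f K ε x)

include h hK hε hp

theorem FF_eq (x : EE n) : FF f K ε x = -Real.log (gf f K ε x.ofLp) := by
  unfold FF qd
  rw [gf_eq h hK.measurableSet hε, Real.log_mul (Real.exp_pos _).ne' (LF_pos h hK hε hp x).ne',
    Real.log_exp, bil_apply, smul_mulVec, one_mulVec, dotProduct_smul, smul_eq_mul]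
  simp only [_root_.zero_apply]
  field_simp
  ring

theorem contDiff_FF : ContDiff ℝ (⊤ : ℕ∞) (FF f K ε) :=
  (contDiff_qd _ _).add (contDiff_logLF h hK hε hp).neg

theorem bdd_FF (k : ℕ) (hk : 2 ≤ k) : ∃ C : ℝ, ∀ y, ‖iteratedFDeriv ℝ k (FF f K ε) y‖ ≤ C := by
  refine bdd_add (contDiff_qd _ _) (contDiff_logLF h hK hε hp).neg (bdd_qd _ _ k hk) ?_
  obtain ⟨C, hC⟩ := bdd_logLF h hK hε hp k hk
  refine ⟨C, fun y => ?_⟩
  have e : iteratedFDeriv ℝ k (fun x : EE n => -Real.log (LF f K ε x)) y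
      = -iteratedFDeriv ℝ k (fun x : EE n => Real.log (LF f K ε x)) y := by
    exact iteratedFDeriv_neg_apply
  rw [e, norm_neg]
  exact hC y

theorem qf_FF_nonneg (hc : Convex ℝ K) (x v : EE n) : 0 ≤ qf (hess (FF f K ε) x) v := by
  have hs := contDiff_FF h hK hε hp
  have h0 := Fr.second_le (f := fun t : ℝ => -FF f K ε (x + t • v))
    (f' := fun t => -(fderiv ℝ (FF f K ε) (x + t • v) v))
    (d := -qf (hess (FF f K ε) (x + (0 : ℝ) • v)) v)
    (fun t => (line1 hs x v t).neg) (line2 hs x v 0).neg fun t => by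
      have h1 := gf_mid h hK.measurableSet hc hε (x + t • v).ofLp (x + (-t) • v).ofLp
      have e : (1 / 2 : ℝ) • (x + t • v).ofLp + (1 / 2 : ℝ) • (x + (-t) • v).ofLp
          = (x + (0 : ℝ) • v).ofLp := by
        ext i
        simp
        ring
      rw [e] at h1
      have p1 := hp (x + t • v).ofLp
      have p2 := hp (x + (-t) • v).ofLp
      have h2 := Real.log_le_log (mul_pos p1 p2) h1
      rw [Real.log_mul p1.ne' p2.ne', Real.log_pow] at h2
      simp only [FF_eq h hK hε hp, neg_neg]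
      push_cast at h2
      exact h2
  rw [zero_smul, add_zero] at h0
  linarith

theorem reg_pt (hc : Convex ℝ K) (hm : 0 < m) : ∃ C, Reg (pt f K ε m) m C := by
  have hs := contDiff_FF h hK hε hp
  refine reg_of hm (hs.add (contDiff_qd _ _)) (fun x v => ?_) fun k hk =>
    bdd_add hs (contDiff_qd _ _) (bdd_FF h hK hε hp k hk) (bdd_qd _ _ k hk)
  unfold pt
  rw [qf_hess_add hs (contDiff_qd _ _), qf_qd, bil_apply, smul_mulVec, one_mulVec, dotProduct_smul,
    smul_eq_mul]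
  have h1 := qf_FF_nonneg h hK hε hp hc x v
  have h2 : v.ofLp ⬝ᵥ v.ofLp = ‖v‖ ^ 2 := by
    rw [EuclideanSpace.norm_sq_eq]
    simp [dotProduct, sq]
  rw [h2]
  linarith

theorem exp_neg_pt (x : EE n) :
    Real.exp (-pt f K ε m x) = gf f K ε x.ofLp * Real.exp (-(m / 2) * (x.ofLp ⬝ᵥ x.ofLp)) := by
  unfold pt qd
  rw [FF_eq h hK hε hp, neg_add, neg_neg, Real.exp_add, Real.exp_log (hp _), bil_apply, smul_mulVec,
    one_mulVec, dotProduct_smul, smul_eq_mul]
  simp only [_root_.zero_apply]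
  congr 2
  ring

end reg

/-- the standard Gaussian weight -/
noncomputable def gw (z : Fin n → ℝ) : ℝ := Real.exp (-(z ⬝ᵥ z) / (2 * 1))

theorem gf_scale {σ : ℝ} (hσ : 0 < σ) (x : Fin n → ℝ) :
    gf f K (σ ^ 2) x = σ ^ n * ∫ z, K.indicator f (x - σ • z) * gw z := by
  set F : (Fin n → ℝ) → ℝ := fun u => K.indicator f (x - u) *
    Real.exp (-(1 / (2 * σ ^ 2)) * (u ⬝ᵥ u)) with hF
  have h1 := Measure.integral_comp_smul (volume : Measure (Fin n → ℝ)) F σ
  have h2 : ∀ z, F (σ • z) = K.indicator f (x - σ • z) * gw z := fun z => by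
    simp only [hF, gw]
    congr 2
    rw [smul_dotProduct, dotProduct_smul, smul_eq_mul, smul_eq_mul]
    field_simp
  simp only [h2] at h1
  rw [h1, Module.finrank_fin_fun, smul_eq_mul, abs_of_pos (by positivity), ← mul_assoc,
    mul_inv_cancel₀ (by positivity), one_mul, ← integral_sub_left_eq_self F volume x]
  unfold gf
  congr 1
  funext y
  simp only [hF, sub_sub_cancel, kr]
  by_cases hy : y ∈ K
  · rw [indicator_of_mem hy, indicator_of_mem hy, mul_comm]
  · rw [indicator_of_notMem hy, indicator_of_notMem hy, zero_mul]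

theorem norm_sq_le_dot (z : Fin n → ℝ) : ‖z‖ ^ 2 ≤ z ⬝ᵥ z := by
  have h0 := Fr.dot_self_nonneg z
  have h1 : ‖z‖ ≤ Real.sqrt (z ⬝ᵥ z) := by
    rw [pi_norm_le_iff_of_nonneg (Real.sqrt_nonneg _)]
    intro i
    rw [Real.norm_eq_abs]
    refine Real.abs_le_sqrt ?_
    rw [sq]
    exact Finset.single_le_sum (f := fun j => z j * z j) (fun _ _ => mul_self_nonneg _)
      (Finset.mem_univ i)
  calc ‖z‖ ^ 2 ≤ Real.sqrt (z ⬝ᵥ z) ^ 2 := pow_le_pow_left₀ (norm_nonneg _) h1 2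
    _ = _ := Real.sq_sqrt h0

theorem ind_bound {M a σ : ℝ} (hM : 0 ≤ M) (hg : Good f M a) (hσ : 0 < σ) (hσ1 : σ ≤ 1)
    (x z : Fin n → ℝ) : K.indicator f (x - σ • z) * gw z ≤
      M * Real.exp (a ^ 2) * Real.exp (-(a * ‖x‖)) * Real.exp (-(z ⬝ᵥ z) / (2 * 2)) := by
  have h1 : K.indicator f (x - σ • z) ≤ M * Real.exp (-(a * ‖x - σ • z‖)) :=
    (indicator_le_self' (fun _ _ => hg.nn _) _).trans (hg.le _)
  have h2 : ‖x‖ ≤ ‖x - σ • z‖ + ‖z‖ := by
    calc ‖x‖ = ‖(x - σ • z) + σ • z‖ := by rw [sub_add_cancel]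
      _ ≤ ‖x - σ • z‖ + ‖σ • z‖ := norm_add_le _ _
      _ ≤ _ := by
        rw [norm_smul, Real.norm_eq_abs, abs_of_pos hσ]
        nlinarith [norm_nonneg z]
  have h3 := norm_sq_le_dot z
  have ha := hg.ha
  refine (mul_le_mul_of_nonneg_right h1 (Real.exp_pos _).le).trans ?_
  rw [mul_assoc, mul_assoc, mul_assoc, ← Real.exp_add, ← Real.exp_add, ← Real.exp_add]
  refine mul_le_mul_of_nonneg_left (Real.exp_le_exp.2 ?_) hM
  nlinarith [sq_nonneg (a - ‖z‖ / 2), mul_le_mul_of_nonneg_left h2 ha.le]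

theorem gw_cont : Continuous (gw : (Fin n → ℝ) → ℝ) := by
  unfold gw dotProduct
  fun_prop

/-- the approximating densities -/
noncomputable def ap (f : (Fin n → ℝ) → ℝ) (x0 : Fin n → ℝ) (k : ℕ) (x : Fin n → ℝ) : ℝ :=
  (GG n 1)⁻¹ * (∫ z, (closedBall x0 (k + 1)).indicator f (x - (1 / ((k : ℝ) + 1)) • z) * gw z)
    * Real.exp (-((1 / ((k : ℝ) + 1)) / 2) * (x ⬝ᵥ x))

theorem dom_ap (h : Nice f) {M a : ℝ} (hM : 0 ≤ M) (hg : Good f M a) (x0 : Fin n → ℝ) :
    Dom (ap f x0) f ((GG n 1)⁻¹ * (M * Real.exp (a ^ 2) * GG n 2)) a := by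
  have hG := GG_pos (n := n) one_pos
  have hG2 := GG_pos (n := n) two_pos
  have hσ : ∀ k : ℕ, 0 < 1 / ((k : ℝ) + 1) := fun k => by positivity
  have hσ1 : ∀ k : ℕ, 1 / ((k : ℝ) + 1) ≤ 1 := fun k => by
    rw [div_le_one (by positivity)]
    linarith [Nat.cast_nonneg (α := ℝ) k]
  have hm : ∀ k : ℕ, Measurable fun p : (Fin n → ℝ) × (Fin n → ℝ) =>
      (closedBall x0 (k + 1)).indicator f (p.1 - (1 / ((k : ℝ) + 1)) • p.2) * gw p.2 := fun k => by
    refine ((h.meas.indicator isClosed_closedBall.measurableSet).comp ?_).mul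
      (gw_cont.measurable.comp measurable_snd)
    fun_prop
  have hnn : ∀ (k : ℕ) x z,
      0 ≤ (closedBall x0 (k + 1)).indicator f (x - (1 / ((k : ℝ) + 1)) • z) * gw z :=
    fun k x z => mul_nonneg (indicator_nonneg (fun _ _ => hg.nn _) _) (Real.exp_pos _).le
  have hI := gauss_integrable (n := n) two_pos
  refine ⟨hg.ha, by positivity, fun k => ?_, fun k x => ?_, fun k x => ?_, ?_⟩
  · refine Measurable.aestronglyMeasurable ?_
    refine (((hm k).stronglyMeasurable.integral_prod_right').measurable.const_mul _).mul ?_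
    refine Continuous.measurable ?_
    unfold dotProduct
    fun_prop
  · exact mul_nonneg (mul_nonneg (inv_pos.2 hG).le (integral_nonneg (hnn k x))) (Real.exp_pos _).le
  · have h1 : ∫ z, (closedBall x0 (k + 1)).indicator f (x - (1 / ((k : ℝ) + 1)) • z) * gw z
        ≤ M * Real.exp (a ^ 2) * Real.exp (-(a * ‖x‖)) * GG n 2 := by
      unfold GG
      rw [← integral_const_mul]
      exact integral_mono_of_nonneg (ae_of_all _ (hnn k x)) (hI.const_mul _)
        (ae_of_all _ fun z => ind_bound hM hg (hσ k) (hσ1 k) x z)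
    have h2 : Real.exp (-((1 / ((k : ℝ) + 1)) / 2) * (x ⬝ᵥ x)) ≤ 1 := by
      rw [Real.exp_le_one_iff]
      have := Fr.dot_self_nonneg x
      have := hσ k
      nlinarith
    unfold ap
    calc _ ≤ (GG n 1)⁻¹ * (M * Real.exp (a ^ 2) * Real.exp (-(a * ‖x‖)) * GG n 2) * 1 :=
          mul_le_mul (mul_le_mul_of_nonneg_left h1 (inv_pos.2 hG).le) h2 (Real.exp_pos _).le
            (by positivity)
      _ = _ := by ring
  · filter_upwards [h.cont] with x hx
    have t0 : Tendsto (fun k : ℕ => 1 / ((k : ℝ) + 1)) atTop (𝓝 0) :=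
      tendsto_one_div_add_atTop_nhds_zero_nat
    have t1 : Tendsto (fun k : ℕ => ∫ z, (closedBall x0 (k + 1)).indicator f
        (x - (1 / ((k : ℝ) + 1)) • z) * gw z) atTop (𝓝 (∫ z : Fin n → ℝ, f x * gw z)) := by
      refine tendsto_integral_of_dominated_convergence
        (fun z => M * Real.exp (a ^ 2) * Real.exp (-(a * ‖x‖)) * Real.exp (-(z ⬝ᵥ z) / (2 * 2)))
        (fun k => ((hm k).comp measurable_prodMk_left).aestronglyMeasurable) (hI.const_mul _)
        (fun k => ae_of_all _ fun z => ?_) (ae_of_all _ fun z => ?_)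
      · rw [Real.norm_eq_abs, abs_of_nonneg (hnn k x z)]
        exact ind_bound hM hg (hσ k) (hσ1 k) x z
      · have t2 : Tendsto (fun k : ℕ => x - (1 / ((k : ℝ) + 1)) • z) atTop (𝓝 x) := by
          simpa using (t0.smul_const z).const_sub x
        refine Tendsto.mul_const _ ((hx.tendsto.comp t2).congr' ?_)
        have t3 : ∀ᶠ k : ℕ in atTop, dist x x0 ≤ k :=
          tendsto_natCast_atTop_atTop.eventually (eventually_ge_atTop _)
        filter_upwards [t3, t2.eventually (ball_mem_nhds x one_pos)] with k h1 h2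
        refine (indicator_of_mem ?_ f).symm
        rw [mem_closedBall]
        have h3 := dist_triangle (x - (1 / ((k : ℝ) + 1)) • z) x x0
        have h4 : dist (x - (1 / ((k : ℝ) + 1)) • z) x < 1 := h2
        linarith
    have t4 : Tendsto (fun k : ℕ => Real.exp (-((1 / ((k : ℝ) + 1)) / 2) * (x ⬝ᵥ x))) atTop
        (𝓝 (Real.exp (-((0 : ℝ) / 2) * (x ⬝ᵥ x)))) :=
      (((t0.div_const 2).neg).mul_const _).rexp
    have t5 := (t1.const_mul (GG n 1)⁻¹).mul t4
    have e : (GG n 1)⁻¹ * (∫ z : Fin n → ℝ, f x * gw z) * Real.exp (-((0 : ℝ) / 2) * (x ⬝ᵥ x)) = f x := by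
      rw [integral_const_mul]
      have : ∫ z : Fin n → ℝ, gw z = GG n 1 := rfl
      rw [this]
      simp only [zero_div, neg_zero, zero_mul, Real.exp_zero, mul_one]
      field_simp
    rw [e] at t5
    exact t5

open Vale.Agent.P254Z.Eq in
/-- regular potentials which approximate a log-concave density -/
theorem approx (h : Nice f) : ∃ V : ℕ → E n → ℝ, (∀ k, ∃ c C, Reg (V k) c C) ∧
    Tendsto (fun k => Dfc (V k)) atTop (𝓝 (DD f)) ∧
    ∀ p : (Fin n → ℝ) → ℝ, PolyGrowth p →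
      Tendsto (fun k => Ex (V k) fun x => p x.ofLp) atTop (𝓝 (Ef f p)) := by
  obtain ⟨M, a, hM, hg⟩ := h.lc.good h.one
  obtain ⟨x0, r, c, hr, hc, hb⟩ := h.lc.exists_ball h.one
  have hd := dom_ap h hM hg x0
  have hG := GG_pos (n := n) one_pos
  have hσ : ∀ k : ℕ, 0 < 1 / ((k : ℝ) + 1) := fun k => by positivity
  have hp : ∀ (k : ℕ) x, 0 < gf f (closedBall x0 (k + 1)) ((1 / ((k : ℝ) + 1)) ^ 2) x := fun k x => by
    refine gf_pos h isClosed_closedBall.measurableSet (by positivity) (U := ball x0 (min r 1))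
      isOpen_ball ⟨x0, mem_ball_self (lt_min hr one_pos)⟩ ?_
      (fun y hy => hc.trans_le (hb y (ball_subset_ball (min_le_left _ _) hy))) x
    refine (ball_subset_ball ?_).trans ball_subset_closedBall
    exact (min_le_right _ _).trans (by linarith [Nat.cast_nonneg (α := ℝ) k])
  have hw : ∀ (k : ℕ) (x : EE n), Real.exp (-pt f (closedBall x0 (k + 1)) ((1 / ((k : ℝ) + 1)) ^ 2)
      (1 / ((k : ℝ) + 1)) x)
      = (fun y => ((1 / ((k : ℝ) + 1)) ^ n * GG n 1) * ap f x0 k y) x.ofLp := fun k x => by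
    rw [exp_neg_pt h (isCompact_closedBall _ _) (by positivity) (hp k), gf_scale (hσ k)]
    simp only [ap]
    field_simp
  have hs : ∀ k : ℕ, 0 < (1 / ((k : ℝ) + 1)) ^ n * GG n 1 := fun k => by positivity
  have hZ : (∫ x, f x) ≠ 0 := by rw [h.one]; exact one_ne_zero
  refine ⟨fun k => pt f (closedBall x0 (k + 1)) ((1 / ((k : ℝ) + 1)) ^ 2) (1 / ((k : ℝ) + 1)),
    fun k => ?_, ?_, fun p hp' => ?_⟩
  · obtain ⟨C, hC⟩ := reg_pt h (isCompact_closedBall _ _) (by positivity) (hp k)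
      (convex_closedBall _ _) (hσ k)
    exact ⟨_, C, hC⟩
  · refine (hd.tendsto_DD hZ hg.det_pos.ne').congr fun k => ?_
    have hk : Good (ap f x0 k) _ a := ⟨hd.ha, hd.meas k, hd.nn k, hd.le k, univ, isOpen_univ,
      univ_nonempty, fun x _ => by
        have h1 := hw k (WithLp.toLp 2 x)
        have h2 := Real.exp_pos (-pt f (closedBall x0 (k + 1)) ((1 / ((k : ℝ) + 1)) ^ 2)
          (1 / ((k : ℝ) + 1)) (WithLp.toLp 2 x))
        rw [h1] at h2
        exact (mul_pos_iff_of_pos_left (hs k)).1 h2⟩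
    rw [Dfc_eq_DD (w := fun y => ((1 / ((k : ℝ) + 1)) ^ n * GG n 1) * ap f x0 k y) (hw k),
      DD_smul (hs k) hk.int1 ?_ hk.mass_pos.ne']
    exact ent_integrable a _ hd.ha hd.hM hk.meas hk.nn hk.le
  · refine (hd.tendsto_Ef hZ hp').congr fun k => ?_
    rw [Ex_eq_Ef (w := fun y => ((1 / ((k : ℝ) + 1)) ^ n * GG n 1) * ap f x0 k y) (hw k),
      Ef_smul (hs k).ne']

end Vale.Agent.N254
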