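import Vale.Agent.P254.Defs
import Vale.Agent.P254.H375.Defs

/-! P254: definitions for the functional form and for random simplices. -/

open MeasureTheory Set Matrix

namespace Vale.Agent.N254

variable {n : ℕ}

/-- The Renyi entropy of order `q ≠ 1` of a probability density `f` on `ℝ^n`. -/
noncomputable def renyi (q : ℝ) (f : (Fin n → ℝ) → ℝ) : ℝ := Real.log (∫ x, f x ^ q) / (1 - q)

open Classical in
/-- The density of the random vector `X` such that the coordinates of `Y = A X + b` are independent
standard exponential variables: `|det A| exp (-(y_1 + ... + y_n))` if all `y_i ≥ 0`, else `0`. -/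
noncomputable def expDens (A : Matrix (Fin n) (Fin n) ℝ) (b : Fin n → ℝ) (x : Fin n → ℝ) : ℝ :=
  if ∀ i, 0 ≤ (A *ᵥ x + b) i then |A.det| * Real.exp (-∑ i, (A *ᵥ x + b) i) else 0

/-- `f` is, almost everywhere, the density of an invertible affine image of `n` independent
standard exponential variables. -/
def IsExpAffine (f : (Fin n → ℝ) → ℝ) : Prop :=
  ∃ (A : Matrix (Fin n) (Fin n) ℝ) (b : Fin n → ℝ), A.det ≠ 0 ∧ f =ᵐ[volume] expDens A b

/-- `E |conv (X_0, ..., X_n)|² / |K|²` for independent uniform random points `X_0, ..., X_n` of `K`. -/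
noncomputable def simplexMoment (K : Set (Fin n → ℝ)) : ℝ :=
  (∫ x in univ.pi fun _ : Fin (n + 1) => K, (volume (convexHull ℝ (range x))).toReal ^ 2)
    / (volume K).toReal ^ (n + 1) / (volume K).toReal ^ 2

end Vale.Agent.N254
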