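import Vale.Agent.P254.H375.Sup

/-! P254, functional form: a log-concave density has a measurable, almost everywhere continuous
log-concave version. -/

set_option linter.all false

open MeasureTheory Set Filter Topology Metric
open Vale.Agent.P254.R304 Vale.Agent.P254.H375

namespace Vale.Agent.N254

variable {n : ℕ} {f : (Fin n → ℝ) → ℝ}

/-- measurable, almost everywhere continuous log-concave densities -/
structure Nice (f : (Fin n → ℝ) → ℝ) : Prop where
  lc : LogConcave f
  one : ∫ x, f x = 1
  meas : Measurable f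
  cont : ∀ᵐ x, ContinuousAt f x

theorem lc_pos (h : LogConcave f) {x y : Fin n → ℝ} (hx : 0 < f x) (hy : 0 < f y) {a b : ℝ}
    (ha : 0 ≤ a) (hb : 0 ≤ b) (hab : a + b = 1) :
    a * Real.log (f x) + b * Real.log (f y) ≤ Real.log (f (a • x + b • y))
      ∧ 0 < f (a • x + b • y) := by
  have ea : a = 1 - b := by linarith
  have h1 := h.2 x y b ⟨hb, by linarith⟩
  rw [← ea] at h1
  have h2 : 0 < f x ^ a * f y ^ b := mul_pos (Real.rpow_pos_of_pos hx _) (Real.rpow_pos_of_pos hy _)
  refine ⟨?_, h2.trans_le h1⟩
  have h3 := Real.log_le_log h2 h1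
  rwa [Real.log_mul (Real.rpow_pos_of_pos hx _).ne' (Real.rpow_pos_of_pos hy _).ne',
    Real.log_rpow hx, Real.log_rpow hy] at h3

theorem convex_supp (h : LogConcave f) : Convex ℝ {x | 0 < f x} :=
  fun _ hx _ hy _ _ ha hb hab => (lc_pos h hx hy ha hb hab).2

theorem concave_log (h : LogConcave f) : ConcaveOn ℝ {x | 0 < f x} fun x => Real.log (f x) :=
  ⟨convex_supp h, fun _ hx _ hy _ _ ha hb hab => (lc_pos h hx hy ha hb hab).1⟩

theorem cont_int (h : LogConcave f) : ContinuousOn f (interior {x | 0 < f x}) := by
  have h1 := (concave_log h).continuousOn_interior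
  refine (Real.continuous_exp.comp_continuousOn h1).congr fun x hx => ?_
  have hx' : 0 < f x := (interior_subset hx : x ∈ {x | 0 < f x})
  simp only [Function.comp_apply]
  rw [Real.exp_log hx']

/-- the restriction of `f` to the interior of its support -/
noncomputable def rg (f : (Fin n → ℝ) → ℝ) : (Fin n → ℝ) → ℝ :=
  (interior {x | 0 < f x}).indicator f

theorem rg_le (h : LogConcave f) (x : Fin n → ℝ) : rg f x ≤ f x :=
  indicator_le_self' (fun _ _ => h.1 _) x

theorem rg_nn (h : LogConcave f) (x : Fin n → ℝ) : 0 ≤ rg f x :=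
  indicator_nonneg (fun _ _ => h.1 _) x

theorem ae_not_frontier (h : LogConcave f) : ∀ᵐ x, x ∉ frontier {x | 0 < f x} :=
  measure_eq_zero_iff_ae_notMem.1 ((convex_supp h).addHaar_frontier volume)

theorem not_frontier {S : Set (Fin n → ℝ)} {x : Fin n → ℝ} (hx : x ∉ frontier S) :
    x ∈ interior S ∨ x ∉ closure S := by
  by_contra hno
  push Not at hno
  exact hx ⟨hno.2, hno.1⟩

theorem rg_ae (h : LogConcave f) : rg f =ᵐ[volume] f := by
  filter_upwards [ae_not_frontier h] with x hx
  rcases not_frontier hx with h1 | h1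
  · exact indicator_of_mem h1 f
  · have h2 : x ∉ {x | 0 < f x} := fun h3 => h1 (subset_closure h3)
    have h3 : f x = 0 := le_antisymm (not_lt.1 h2) (h.1 x)
    rw [h3]
    exact indicator_of_notMem (fun h4 => h2 (interior_subset h4)) f

theorem rg_lc (h : LogConcave f) : LogConcave (rg f) := by
  refine ⟨rg_nn h, fun x y t ht => ?_⟩
  rcases ht.1.eq_or_lt with h0 | h0
  · subst h0
    simp
  rcases ht.2.eq_or_lt with h1 | h1
  · subst h1
    simp
  by_cases hx : x ∈ interior {x | 0 < f x}
  · by_cases hy : y ∈ interior {x | 0 < f x}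
    · have hm : (1 - t) • x + t • y ∈ interior {x | 0 < f x} :=
        (convex_supp h).interior hx hy (by linarith) h0.le (by ring)
      unfold rg
      rw [indicator_of_mem hx, indicator_of_mem hy, indicator_of_mem hm]
      exact h.2 x y t ht
    · have : rg f y = 0 := indicator_of_notMem hy f
      rw [this, Real.zero_rpow h0.ne', mul_zero]
      exact rg_nn h _
  · have : rg f x = 0 := indicator_of_notMem hx f
    rw [this, Real.zero_rpow (by linarith), zero_mul]
    exact rg_nn h _

theorem rg_meas (h : LogConcave f) : Measurable (rg f) := by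
  classical
  have h1 := (cont_int h).measurable_piecewise (g := fun _ => (0 : ℝ)) continuousOn_const
    isOpen_interior.measurableSet
  have e : rg f = (interior {x | 0 < f x}).piecewise f fun _ => (0 : ℝ) := by
    funext x
    unfold rg
    by_cases hx : x ∈ interior {x | 0 < f x} <;> simp [hx]
  rwa [e]

theorem rg_cont (h : LogConcave f) : ∀ᵐ x, ContinuousAt (rg f) x := by
  filter_upwards [ae_not_frontier h] with x hx
  rcases not_frontier hx with h1 | h1
  · have h2 := (cont_int h).continuousAt (isOpen_interior.mem_nhds h1)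
    refine h2.congr ?_
    filter_upwards [isOpen_interior.mem_nhds h1] with y hy
    exact (indicator_of_mem hy f).symm
  · refine (continuousAt_const (y := (0 : ℝ))).congr ?_
    filter_upwards [isClosed_closure.isOpen_compl.mem_nhds h1] with y hy
    exact (indicator_of_notMem (fun h4 => hy (subset_closure (interior_subset h4))) f).symm

theorem nice_rg (h : LogConcave f) (h1 : ∫ x, f x = 1) : Nice (rg f) :=
  ⟨rg_lc h, by rw [integral_congr_ae (rg_ae h), h1], rg_meas h, rg_cont h⟩

theorem cov_congr {g : (Fin n → ℝ) → ℝ} (h : f =ᵐ[volume] g) : cov f = cov g := by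
  funext i j
  unfold cov
  have e : ∀ p : (Fin n → ℝ) → ℝ, ∫ x, p x * f x = ∫ x, p x * g x := fun p =>
    integral_congr_ae (h.mono fun x hx => by simp only [hx])
  rw [e fun x => x i * x j, e fun x => x i, e fun x => x j]

theorem entropy_congr {g : (Fin n → ℝ) → ℝ} (h : f =ᵐ[volume] g) : entropy f = entropy g := by
  unfold entropy
  rw [integral_congr_ae (h.mono fun x hx => by simp only [hx] :
    (fun x => f x * Real.log (f x)) =ᵐ[volume] fun x => g x * Real.log (g x))]

theorem pow_congr {g : (Fin n → ℝ) → ℝ} (h : f =ᵐ[volume] g) (q : ℝ) :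
    ∫ x, f x ^ q = ∫ x, g x ^ q :=
  integral_congr_ae (h.mono fun x hx => by simp only [hx])

theorem DD_eq (h1 : ∫ x, f x = 1) :
    DD f = entropy f - (n + 1 / 2 * Real.log (cov f).det) := by
  unfold DD entF entropy
  rw [cov_eq_covF h1, h1, Real.log_one, div_one]
  ring

end Vale.Agent.N254
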