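import Vale.Agent.N254.Defs
import Vale.Agent.N254.LC

/-! P254, functional form: the affine images of independent exponential variables. -/

set_option linter.all false

open MeasureTheory Set Filter Topology Matrix
open Vale.Agent.P254 Vale.Agent.P254.R304 Vale.Agent.P254.H375

namespace Vale.Agent.N254

variable {n : ℕ} {A : Matrix (Fin n) (Fin n) ℝ} {b : Fin n → ℝ}

theorem cvar (hA : A.det ≠ 0) (b : Fin n → ℝ) (F : (Fin n → ℝ) → ℝ) :
    |A.det| * ∫ x, F (A *ᵥ x + b) = ∫ y, F y := by
  have h2 := setIntegral_aff_image (n := n) hA b MeasurableSet.univ F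
  have h3 : aff A b '' univ = univ := by
    rw [image_univ, range_eq_univ]
    intro x
    refine ⟨A⁻¹ *ᵥ (x - b), ?_⟩
    unfold aff
    rw [mulVec_mulVec, mul_nonsing_inv _ (isUnit_iff_ne_zero.2 hA), one_mulVec, sub_add_cancel]
  rw [h3, Measure.restrict_univ] at h2
  exact h2.symm

theorem exp_mem {x : Fin n → ℝ} (hx : A *ᵥ x + b ∈ orth n) :
    expDens A b x = |A.det| * Real.exp (-∑ i, (A *ᵥ x + b) i) := if_pos hx

theorem exp_notMem {x : Fin n → ℝ} (hx : A *ᵥ x + b ∉ orth n) : expDens A b x = 0 := if_neg hx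

theorem exp_nn (x : Fin n → ℝ) : 0 ≤ expDens A b x := by
  by_cases hx : A *ᵥ x + b ∈ orth n
  · rw [exp_mem hx]
    positivity
  · rw [exp_notMem hx]

theorem int_exp (hA : A.det ≠ 0) (b : Fin n → ℝ) (p : (Fin n → ℝ) → ℝ) :
    ∫ x, p (A *ᵥ x + b) * expDens A b x = ∫ y in orth n, p y * Real.exp (-∑ i, y i) := by
  rw [← integral_indicator measurableSet_orth, ← cvar hA b ((orth n).indicator _),
    ← integral_const_mul]
  congr 1
  funext x
  by_cases hx : A *ᵥ x + b ∈ orth n
  · rw [exp_mem hx, indicator_of_mem hx]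
    ring
  · rw [exp_notMem hx, indicator_of_notMem hx, mul_zero, mul_zero]

theorem exp_lc (hA : A.det ≠ 0) (b : Fin n → ℝ) : LogConcave (expDens A b) := by
  refine ⟨exp_nn, fun x y t ht => ?_⟩
  rcases ht.1.eq_or_lt with h0 | h0
  · subst h0
    simp
  rcases ht.2.eq_or_lt with h1 | h1
  · subst h1
    simp
  have e : A *ᵥ ((1 - t) • x + t • y) + b = (1 - t) • (A *ᵥ x + b) + t • (A *ᵥ y + b) := by
    rw [mulVec_add, mulVec_smul, mulVec_smul]
    module
  by_cases hx : A *ᵥ x + b ∈ orth n
  · by_cases hy : A *ᵥ y + b ∈ orth n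
    · have hm : A *ᵥ ((1 - t) • x + t • y) + b ∈ orth n := by
        rw [e]
        intro i
        exact add_nonneg (mul_nonneg (by linarith) (hx i)) (mul_nonneg h0.le (hy i))
      have hd : 0 < |A.det| := abs_pos.2 hA
      rw [exp_mem hx, exp_mem hy, exp_mem hm, e, Real.mul_rpow hd.le (Real.exp_pos _).le,
        Real.mul_rpow hd.le (Real.exp_pos _).le, ← Real.exp_mul, ← Real.exp_mul, mul_mul_mul_comm,
        ← Real.rpow_add hd, ← Real.exp_add, sub_add_cancel, Real.rpow_one]
      refine le_of_eq ?_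
      congr 2
      generalize A *ᵥ x + b = u
      generalize A *ᵥ y + b = v
      simp only [Pi.add_apply, Pi.smul_apply, smul_eq_mul, Finset.sum_add_distrib, ← Finset.mul_sum]
      ring
    · rw [exp_notMem hy, Real.zero_rpow h0.ne', mul_zero]
      exact exp_nn _
  · rw [exp_notMem hx, Real.zero_rpow (by linarith), zero_mul]
    exact exp_nn _

theorem m0 : ∫ y in orth n, Real.exp (-∑ i, y i) = 1 := by
  simpa using integral_orth_monomial (n := n) fun _ => 0

theorem exp_one (hA : A.det ≠ 0) (b : Fin n → ℝ) : ∫ x, expDens A b x = 1 := by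
  simpa [m0] using int_exp hA b fun _ => 1

theorem prod_single (k : Fin n) (y : Fin n → ℝ) :
    ∏ i, y i ^ (Pi.single k 1 : Fin n → ℕ) i = y k := by
  rw [Finset.prod_eq_single k]
  · simp
  · intro j _ hj
    simp [hj]
  · simp

theorem m1 (k : Fin n) : ∫ y in orth n, y k * Real.exp (-∑ i, y i) = 1 := by
  have h := integral_orth_monomial (n := n) (Pi.single k 1)
  simp only [prod_single] at h
  rw [h]
  refine Finset.prod_eq_one fun i _ => ?_
  by_cases hi : i = k <;> simp [hi]

theorem m2 (k l : Fin n) :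
    ∫ y in orth n, y k * y l * Real.exp (-∑ i, y i) = 1 + (1 : Matrix (Fin n) (Fin n) ℝ) k l := by
  have h := integral_orth_monomial (n := n) (Pi.single k 1 + Pi.single l 1)
  simp only [Pi.add_apply, pow_add, Finset.prod_mul_distrib, prod_single] at h
  rw [h]
  by_cases hkl : k = l
  · subst hkl
    rw [Finset.prod_eq_single k]
    · simp
      norm_num
    · intro j _ hj
      simp [hj]
    · simp
  · rw [one_apply_ne hkl, add_zero]
    refine Finset.prod_eq_one fun i _ => ?_
    by_cases hi : i = k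
    · subst hi
      simp [hkl]
    · by_cases hl : i = l <;> simp [hi, hl, Ne.symm hkl]

theorem intOrth {p : (Fin n → ℝ) → ℝ} (hp : PolyGrowth p) :
    Integrable (fun y => p y * Real.exp (-∑ i, y i)) (volume.restrict (orth n)) := by
  have h1 : (1 : Matrix (Fin n) (Fin n) ℝ).det ≠ 0 := by simp
  obtain ⟨M, a, -, hg⟩ := (exp_lc h1 0).good (exp_one h1 0)
  refine (integrable_indicator_iff measurableSet_orth).1 ((hg.int hp).congr (ae_of_all _ fun y => ?_))
  by_cases hy : y ∈ orth n
  · have : (1 : Matrix (Fin n) (Fin n) ℝ) *ᵥ y + 0 ∈ orth n := by simpa using hy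
    simp only [exp_mem this, indicator_of_mem hy]
    simp
  · have : (1 : Matrix (Fin n) (Fin n) ℝ) *ᵥ y + 0 ∉ orth n := by simpa using hy
    simp only [exp_notMem this, indicator_of_notMem hy, mul_zero]

theorem cov_exp (hA : A.det ≠ 0) (b : Fin n → ℝ) : cov (expDens A b) = A⁻¹ * A⁻¹ᵀ := by
  set B := A⁻¹ with hB
  set c := B *ᵥ b with hc
  have hx : ∀ (x : Fin n → ℝ) i, x i = ∑ k, B i k * (A *ᵥ x + b) k - c i := fun x i => by
    have : B *ᵥ (A *ᵥ x + b) - c = x := by
      rw [mulVec_add, mulVec_mulVec, nonsing_inv_mul _ (isUnit_iff_ne_zero.2 hA), one_mulVec,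
        add_sub_cancel_right]
    exact (congrFun this i).symm
  have i0 : Integrable (fun y : Fin n → ℝ => Real.exp (-∑ i, y i)) (volume.restrict (orth n)) := by
    simpa using intOrth (n := n) pg_one
  have i1 := fun k : Fin n => intOrth (pg_coord k)
  have i2 := fun k l : Fin n => intOrth (pg_coord2 k l)
  have s1 : ∀ i, Integrable (fun y : Fin n → ℝ => ∑ k, B i k * (y k * Real.exp (-∑ i, y i)))
      (volume.restrict (orth n)) := fun i => integrable_finsetSum _ fun k _ => (i1 k).const_mul _
  have t1 : ∀ i, ∫ y in orth n, ∑ k, B i k * (y k * Real.exp (-∑ i, y i)) = ∑ k, B i k := fun i => by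
    rw [integral_finsetSum _ fun k _ => (i1 k).const_mul _]
    simp only [integral_const_mul, m1, mul_one]
  have e1 : ∀ i, ∫ x, x i * expDens A b x = ∑ k, B i k - c i := fun i => by
    have h := int_exp hA b fun y => ∑ k, B i k * y k - c i
    simp only [← hx] at h
    rw [h]
    simp only [sub_mul, Finset.sum_mul, mul_assoc]
    rw [integral_sub (s1 i) (i0.const_mul _), t1, integral_const_mul, m0, mul_one]
  funext i j
  have h := int_exp hA b fun y => (∑ k, B i k * y k - c i) * (∑ k, B j k * y k - c j)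
  simp only [← hx] at h
  have e2 : ∀ y : Fin n → ℝ, (∑ k, B i k * y k - c i) * (∑ k, B j k * y k - c j)
      * Real.exp (-∑ i, y i) = ∑ k, ∑ l, B i k * B j l * (y k * y l * Real.exp (-∑ i, y i))
        - c j * ∑ k, B i k * (y k * Real.exp (-∑ i, y i))
        - c i * ∑ k, B j k * (y k * Real.exp (-∑ i, y i)) + c i * c j * Real.exp (-∑ i, y i) := by
    intro y
    have a1 : ∑ k, ∑ l, B i k * B j l * (y k * y l * Real.exp (-∑ i, y i))
        = (∑ k, B i k * y k) * (∑ k, B j k * y k) * Real.exp (-∑ i, y i) := by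
      rw [Finset.sum_mul_sum, Finset.sum_mul]
      refine Finset.sum_congr rfl fun k _ => ?_
      rw [Finset.sum_mul]
      exact Finset.sum_congr rfl fun l _ => by ring
    rw [a1]
    simp only [← mul_assoc, ← Finset.sum_mul]
    ring
  have s2 : ∀ k, Integrable (fun y : Fin n → ℝ =>
      ∑ l, B i k * B j l * (y k * y l * Real.exp (-∑ i, y i))) (volume.restrict (orth n)) :=
    fun k => integrable_finsetSum _ fun l _ => (i2 k l).const_mul _
  have s3 := integrable_finsetSum Finset.univ fun k _ => s2 k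
  have s4 : Integrable (fun y : Fin n → ℝ =>
      ∑ k, ∑ l, B i k * B j l * (y k * y l * Real.exp (-∑ i, y i))
        - c j * ∑ k, B i k * (y k * Real.exp (-∑ i, y i))) (volume.restrict (orth n)) :=
    s3.sub ((s1 i).const_mul _)
  have s5 : Integrable (fun y : Fin n → ℝ =>
      ∑ k, ∑ l, B i k * B j l * (y k * y l * Real.exp (-∑ i, y i))
        - c j * ∑ k, B i k * (y k * Real.exp (-∑ i, y i))
        - c i * ∑ k, B j k * (y k * Real.exp (-∑ i, y i))) (volume.restrict (orth n)) :=
    s4.sub ((s1 j).const_mul _)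
  unfold cov
  rw [h, e1, e1]
  simp only [e2]
  rw [integral_add s5 (i0.const_mul _), integral_sub s4 ((s1 j).const_mul _),
    integral_sub s3 ((s1 i).const_mul _), integral_const_mul, integral_const_mul,
    integral_const_mul, t1, t1, m0, integral_finsetSum _ fun k _ => s2 k]
  have a2 : ∀ k, ∫ y in orth n, ∑ l, B i k * B j l * (y k * y l * Real.exp (-∑ i, y i))
      = B i k * ∑ l, B j l + B i k * B j k := fun k => by
    rw [integral_finsetSum _ fun l _ => (i2 k l).const_mul _]
    simp only [integral_const_mul, m2, mul_add, mul_one, Finset.sum_add_distrib, Finset.mul_sum,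
      one_apply, mul_ite, mul_zero, Finset.sum_ite_eq, Finset.mem_univ, if_true]
  simp only [a2, Finset.sum_add_distrib, ← Finset.sum_mul, mul_apply, transpose_apply]
  ring

theorem logdet_exp (hA : A.det ≠ 0) (b : Fin n → ℝ) :
    1 / 2 * Real.log (cov (expDens A b)).det = -Real.log |A.det| := by
  rw [cov_exp hA, det_mul, det_transpose, det_nonsing_inv, Ring.inverse_eq_inv',
    Real.log_mul (inv_ne_zero hA) (inv_ne_zero hA), Real.log_inv, Real.log_abs]
  ring

theorem entropy_exp (hA : A.det ≠ 0) (b : Fin n → ℝ) :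
    entropy (expDens A b) = n - Real.log |A.det| := by
  have h := int_exp hA b fun y => Real.log |A.det| - ∑ i, y i
  have e : ∀ x, expDens A b x * Real.log (expDens A b x)
      = (Real.log |A.det| - ∑ i, (A *ᵥ x + b) i) * expDens A b x := fun x => by
    by_cases hx : A *ᵥ x + b ∈ orth n
    · rw [mul_comm, exp_mem hx, Real.log_mul (abs_ne_zero.2 hA) (Real.exp_pos _).ne', Real.log_exp,
        sub_eq_add_neg]
    · rw [exp_notMem hx, zero_mul, mul_zero]
  have i0 : Integrable (fun y : Fin n → ℝ => Real.exp (-∑ i, y i)) (volume.restrict (orth n)) := by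
    simpa using intOrth (n := n) pg_one
  have i1 := fun k : Fin n => intOrth (pg_coord k)
  unfold entropy
  simp only [e]
  rw [h]
  simp only [sub_mul, Finset.sum_mul]
  rw [integral_sub (i0.const_mul _) (integrable_finsetSum _ fun k _ => i1 k), integral_const_mul, m0,
    integral_finsetSum _ fun k _ => i1 k]
  simp [m1]

theorem pow_exp (hA : A.det ≠ 0) (b : Fin n → ℝ) {q : ℝ} (hq : 0 < q) :
    ∫ x, expDens A b x ^ q = |A.det| ^ (q - 1) * (q ^ n)⁻¹ := by
  have hd : 0 < |A.det| := abs_pos.2 hA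
  have h := int_exp hA b fun y => |A.det| ^ (q - 1) * Real.exp (-(q - 1) * ∑ i, y i)
  have e : ∀ x, expDens A b x ^ q
      = |A.det| ^ (q - 1) * Real.exp (-(q - 1) * ∑ i, (A *ᵥ x + b) i) * expDens A b x := fun x => by
    by_cases hx : A *ᵥ x + b ∈ orth n
    · rw [exp_mem hx, Real.mul_rpow hd.le (Real.exp_pos _).le, ← Real.exp_mul, mul_mul_mul_comm,
        ← Real.exp_add, ← Real.rpow_add_one hd.ne', sub_add_cancel]
      congr 2
      ring
    · rw [exp_notMem hx, Real.zero_rpow hq.ne', mul_zero]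
  simp only [e]
  rw [h]
  simp only [mul_assoc, ← Real.exp_add]
  rw [integral_const_mul, restrict_orth]
  congr 1
  have e2 : ∀ y : Fin n → ℝ, Real.exp (-(q - 1) * ∑ i, y i + -∑ i, y i)
      = ∏ i, Real.exp (-q * y i) := fun y => by
    rw [← Real.exp_sum, ← Finset.mul_sum]
    congr 1
    ring
  simp only [e2]
  rw [integral_fintype_prod_eq_prod (fun (_ : Fin n) (x : ℝ) => Real.exp (-q * x)),
    integral_Ici_eq_integral_Ioi, integral_exp_mul_Ioi (by linarith)]
  simp

/-- an almost everywhere upper bound of the density is at least `|det A|` -/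
theorem det_le_of_ae (hA : A.det ≠ 0) (b : Fin n → ℝ) {M : ℝ} (hM : ∀ᵐ x, expDens A b x ≤ M) :
    |A.det| ≤ M := by
  have hU : IsOpen {x : Fin n → ℝ | (∀ i, 0 < (A *ᵥ x + b) i) ∧
      M < |A.det| * Real.exp (-∑ i, (A *ᵥ x + b) i)} := by
    have h1 : IsOpen {x : Fin n → ℝ | ∀ i, 0 < (A *ᵥ x + b) i} := by
      rw [setOf_forall]
      exact isOpen_iInter_of_finite fun i => isOpen_lt continuous_const (by fun_prop)
    have h2 : IsOpen {x : Fin n → ℝ | M < |A.det| * Real.exp (-∑ i, (A *ᵥ x + b) i)} :=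
      isOpen_lt continuous_const (by fun_prop)
    exact h1.inter h2
  have h0 := (hU.measure_eq_zero_iff volume).1 (measure_mono_null (fun x hx => by
    show ¬expDens A b x ≤ M
    rw [exp_mem fun i => (hx.1 i).le]
    exact not_le.2 hx.2) hM)
  have h1 : ∀ t : ℝ, 0 < t → |A.det| * Real.exp (-(n * t)) ≤ M := fun t ht => by
    have e : A *ᵥ (A⁻¹ *ᵥ ((fun _ => t) - b)) + b = fun _ => t := by
      rw [mulVec_mulVec, mul_nonsing_inv _ (isUnit_iff_ne_zero.2 hA), one_mulVec, sub_add_cancel]
    by_contra hc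
    refine (eq_empty_iff_forall_notMem.1 h0) (A⁻¹ *ᵥ ((fun _ => t) - b)) ⟨fun i => ?_, ?_⟩
    · rw [e]
      exact ht
    · rw [e]
      simpa using hc
  have h2 : Tendsto (fun t : ℝ => |A.det| * Real.exp (-(n * t))) (𝓝[>] 0) (𝓝 |A.det|) := by
    have : Continuous fun t : ℝ => |A.det| * Real.exp (-(n * t)) := by fun_prop
    simpa using (this.tendsto 0).mono_left nhdsWithin_le_nhds
  exact le_of_tendsto h2 (eventually_nhdsWithin_of_forall h1)

end Vale.Agent.N254
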