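import Vale.Agent.N254.Exp
import Vale.Agent.N254.Eqc
import Vale.Agent.N254.Apx

/-! P254, functional form: the entropy inequality with its equality case. -/

set_option linter.all false

open MeasureTheory Set Filter Topology Matrix

namespace Vale.Agent.N254

open Vale.Agent.P227.M Vale.Agent.P254 Vale.Agent.P254.S Vale.Agent.P254.S130
open Vale.Agent.P254Z Vale.Agent.P254Z.Br Vale.Agent.P254Z.Eq
open Vale.Agent.P254.H375 hiding EE GG

variable {n : ℕ}

theorem E0_inj : Function.Injective SF.E0 :=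
  (strictMono_of_deriv_pos fun z => by
    rw [(SF.E0_hasDerivAt z).deriv]
    exact SF.h_pos z).injective

theorem h_exp (z : ℝ) : SF.h z * Real.exp (-SF.E0 z) = SF.ph z / √(2 * Real.pi) := by
  unfold SF.E0 SF.h
  rw [neg_neg, Real.exp_log (div_pos (SF.J_pos z) SF.sqrt_two_pi_pos)]
  field_simp [(SF.J_pos z).ne']

theorem cv_E0 (F : (Fin n → ℝ) → ℝ) : ∫ y in orth n, F y * Real.exp (-∑ i, y i)
    = ∫ u : Fin n → ℝ, F (fun i => SF.E0 (u i)) * ∏ i, SF.ph (u i) / √(2 * Real.pi) := by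
  have hd : ∀ u : Fin n → ℝ, HasFDerivAt (fun (u : Fin n → ℝ) i => SF.E0 (u i))
      (LinearMap.toContinuousLinearMap (toLin' (diagonal fun i => SF.h (u i)))) u := fun u => by
    refine hasFDerivAt_pi'' fun i => ?_
    have h2 := HasDerivAt.comp_hasFDerivAt (h₂ := SF.E0) (f := fun x : Fin n → ℝ => x i) u
      (SF.E0_hasDerivAt (u i)) (hasFDerivAt_apply (𝕜 := ℝ) i u)
    refine h2.congr_fderiv ?_
    ext v
    simp [mulVec_diagonal]
  have h := integral_image_eq_integral_abs_det_fderiv_smul (volume : Measure (Fin n → ℝ))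
    MeasurableSet.univ (fun u _ => (hd u).hasFDerivWithinAt)
    (fun u _ v _ huv => funext fun i => E0_inj (congrFun huv i))
    fun y => F y * Real.exp (-∑ i, y i)
  have e1 : (fun (u : Fin n → ℝ) i => SF.E0 (u i)) '' univ = univ.pi fun _ => Ioi (0 : ℝ) := by
    ext y
    constructor
    · rintro ⟨u, -, rfl⟩ i -
      exact SF.E0_pos _
    · intro hy
      choose u hu using fun i => E0_surj (hy i (mem_univ i))
      exact ⟨u, mem_univ _, funext hu⟩
  have e2 : orth n = univ.pi fun _ => Ici (0 : ℝ) := by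
    ext u
    simp only [orth, mem_ofPred_eq, mem_univ_pi, mem_Ici]
  have e3 : (univ.pi fun _ : Fin n => Ioi (0 : ℝ)) =ᵐ[volume] univ.pi fun _ => Ici (0 : ℝ) :=
    Measure.pi_Ioi_ae_eq_pi_Ici (f := fun _ => 0)
  rw [e1, setIntegral_congr_set e3, ← e2, Measure.restrict_univ] at h
  rw [h]
  congr 1
  funext u
  have e4 : (LinearMap.toContinuousLinearMap (toLin' (diagonal fun i => SF.h (u i)))).det
      = ∏ i, SF.h (u i) := by
    rw [ContinuousLinearMap.det]
    simp
  rw [e4, abs_of_pos (Finset.prod_pos fun i _ => SF.h_pos _), smul_eq_mul, ← Finset.sum_neg_distrib,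
    Real.exp_sum, mul_left_comm, ← Finset.prod_mul_distrib]
  simp only [h_exp]

theorem dens_eq (z : E n) : dens z = ∏ i, SF.ph (z.ofLp i) / √(2 * Real.pi) := by
  have e : ∀ z : E n, Real.exp (-Q z) = ∏ i, SF.ph (z.ofLp i) := fun z => by
    unfold Q SF.ph
    rw [← Real.exp_sum, EuclideanSpace.real_norm_sq_eq]
    congr 1
    simp only [neg_div, Finset.sum_neg_distrib, Finset.sum_div]
  unfold dens
  simp only [e]
  rw [S5.integral_ofLp fun x : Fin n → ℝ => ∏ i, SF.ph (x i), integral_fintype_prod_volume_eq_prod,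
    SF.ph_integral, Finset.prod_div_distrib]

theorem gauss_exp {O : Matrix (Fin n) (Fin n) ℝ} (hO : Oᵀ * O = 1) (F : (Fin n → ℝ) → ℝ) :
    ∫ z, F (fun i => SF.E0 (∑ l, O l i * z l)) ∂(gQ n)
      = ∫ y in orth n, F y * Real.exp (-∑ i, y i) := by
  have hd : Oᵀ.det * Oᵀ.det = 1 := by
    nth_rewrite 2 [det_transpose]
    rw [← det_mul, hO, det_one]
  have hd0 : Oᵀ.det ≠ 0 := left_ne_zero_of_mul_eq_one hd
  have hd1 : |Oᵀ.det| = 1 := by
    have := abs_mul_abs_self Oᵀ.det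
    rw [hd] at this
    nlinarith [abs_nonneg Oᵀ.det]
  have hp : ∀ x : Fin n → ℝ, ∏ i, SF.ph ((Oᵀ *ᵥ x) i) / √(2 * Real.pi)
      = ∏ i, SF.ph (x i) / √(2 * Real.pi) := fun x => by
    have e : (Oᵀ *ᵥ x) ⬝ᵥ (Oᵀ *ᵥ x) = x ⬝ᵥ x := by
      rw [dotProduct_mulVec, vecMul_transpose, mulVec_mulVec, mul_eq_one_comm.1 hO, one_mulVec]
    simp only [Finset.prod_div_distrib, SF.ph, ← Real.exp_sum, neg_div, Finset.sum_neg_distrib,
      ← Finset.sum_div, sq]
    exact congrArg (fun t => Real.exp (-(t / 2)) / _) e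
  rw [cv_E0, ← cvar hd0 0 fun u => F (fun i => SF.E0 (u i)) * ∏ i, SF.ph (u i) / √(2 * Real.pi),
    hd1, one_mul, gQ, integral_withDensity_eq_integral_toReal_smul
      (f := fun z : E n => ENNReal.ofReal (dens z)) (ENNReal.measurable_ofReal.comp dens_cont.measurable) (ae_of_all _ fun z => ENNReal.ofReal_lt_top),
    ← S5.integral_ofLp]
  congr 1
  funext z
  simp only [add_zero, hp, Function.comp_apply]
  rw [ENNReal.toReal_ofReal (dens_pos z).le, smul_eq_mul, dens_eq, mul_comm]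
  rfl

variable {f : (Fin n → ℝ) → ℝ}

theorem det_ne (h : LogConcave f) (h1 : ∫ x, f x = 1) {W : Matrix (Fin n) (Fin n) ℝ} {β : Fin n → ℝ}
    (H : ∀ g : (Fin n → ℝ) → ℝ, LipschitzWith 1 g → (∀ x, |g x| ≤ 1) →
      ∫ x, g x * f x = ∫ y in orth n, g (W *ᵥ y + β) * Real.exp (-∑ i, y i)) : W.det ≠ 0 := by
  intro h0
  obtain ⟨u, hu, hu0⟩ := exists_vecMul_eq_zero_iff.2 h0
  obtain ⟨M, a, -, hg⟩ := h.good h1
  have hR : IsClosed {x : Fin n → ℝ | u ⬝ᵥ x = u ⬝ᵥ β} := isClosed_eq (by fun_prop) continuous_const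
  set R := {x : Fin n → ℝ | u ⬝ᵥ x = u ⬝ᵥ β}
  have hm : ∀ y, W *ᵥ y + β ∈ R := fun y => by
    show u ⬝ᵥ _ = _
    rw [dotProduct_add, dotProduct_mulVec, hu0, zero_dotProduct, zero_add]
  have h2 := H _ (td_lip R) (td_abs _)
  simp only [td_of_mem (hm _), zero_mul, integral_zero] at h2
  rw [integral_eq_zero_iff_of_nonneg (fun x => mul_nonneg (td_nonneg _ _) (hg.nn x))
    (hg.int ⟨(td_lip R).continuous.aestronglyMeasurable, 1, 0, fun x => by
      simpa using td_abs R x⟩)] at h2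
  obtain ⟨U, hU, ⟨x, hx⟩, hp⟩ := hg.pos
  have h3 : EqOn (td R) 0 U := by
    refine Measure.eqOn_open_of_ae_eq (μ := volume) ?_ hU
      (td_lip R).continuous.continuousOn continuousOn_const
    filter_upwards [ae_restrict_of_ae h2, ae_restrict_mem hU.measurableSet] with x hx hx'
    exact (mul_eq_zero.1 hx).resolve_right (hp x hx').ne'
  have h4 : U ⊆ R := fun x hx => mem_of_td hR ⟨_, hm 0⟩ (h3 hx)
  have h5 : Tendsto (fun t : ℝ => x + t • u) (𝓝[>] 0) (𝓝 x) := by
    have : Continuous fun t : ℝ => x + t • u := by fun_prop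
    simpa using (this.tendsto 0).mono_left nhdsWithin_le_nhds
  obtain ⟨t, ht, ht0⟩ := ((h5.eventually (hU.mem_nhds hx)).and self_mem_nhdsWithin).exists
  have h6 : u ⬝ᵥ (x + t • u) = u ⬝ᵥ β := h4 ht
  have h7 : u ⬝ᵥ x = u ⬝ᵥ β := h4 hx
  rw [dotProduct_add, h7, dotProduct_smul, smul_eq_mul, add_eq_left, mul_eq_zero,
    dotProduct_self_eq_zero] at h6
  exact h6.elim (ne_of_gt ht0) hu

theorem ae_of_lip {g : (Fin n → ℝ) → ℝ} (hf : Integrable f) (hg : Integrable g)
    (H : ∀ p : (Fin n → ℝ) → ℝ, LipschitzWith 1 p → (∀ x, |p x| ≤ 1) →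
      ∫ x, p x * f x = ∫ x, p x * g x) : f =ᵐ[volume] g := by
  refine ae_eq_of_integral_contDiff_smul_eq hf.locallyIntegrable hg.locallyIntegrable
    fun p hp hc => ?_
  obtain ⟨C, hC⟩ := hp.lipschitzWith_of_hasCompactSupport hc (by simp)
  obtain ⟨B, hB⟩ := hc.exists_bound_of_continuous hp.continuous
  have hB0 : 0 ≤ B := (norm_nonneg _).trans (hB 0)
  have hL : 0 < (C : ℝ) + B + 1 := by positivity
  have h := H (fun x => p x / (C + B + 1)) (LipschitzWith.of_dist_le_mul fun x y => by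
      rw [Real.dist_eq, ← sub_div, abs_div, abs_of_pos hL, div_le_iff₀ hL, ← Real.dist_eq]
      refine (hC.dist_le_mul x y).trans ?_
      have := dist_nonneg (x := x) (y := y)
      push_cast
      nlinarith)
    fun x => by
      rw [abs_div, abs_of_pos hL, div_le_one hL]
      have := hB x
      rw [Real.norm_eq_abs] at this
      have := C.2
      linarith
  simp only [div_mul_eq_mul_div, integral_div] at h
  simpa only [smul_eq_mul] using (div_left_inj' hL.ne').1 h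

theorem ent_ge (hM : StmtMargin) (h : LogConcave f) (h1 : ∫ x, f x = 1) :
    n + 1 / 2 * Real.log (cov f).det ≤ entropy f := by
  obtain ⟨V, hV, hD, -⟩ := approx (nice_rg h h1)
  have h2 := ge_of_tendsto' hD fun k => by
    obtain ⟨c, C, h⟩ := hV k
    exact Dfc_nonneg hM h
  rw [DD_eq (nice_rg h h1).one, cov_congr (rg_ae h), entropy_congr (rg_ae h)] at h2
  linarith

theorem ent_eq (hM : StmtMargin) (h : LogConcave f) (h1 : ∫ x, f x = 1)
    (he : entropy f ≤ n + 1 / 2 * Real.log (cov f).det) : IsExpAffine f := by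
  have hN := nice_rg h h1
  obtain ⟨V, hV, hD, hE⟩ := approx hN
  have h2 : R304.DD (rg f) = 0 := by
    rw [DD_eq hN.one, cov_congr (rg_ae h), entropy_congr (rg_ae h)]
    linarith [ent_ge hM h h1]
  rw [h2] at hD
  obtain ⟨G, O, β, hO, H⟩ := exists_T0 hM V hV hD hE
  have H2 : ∀ g : (Fin n → ℝ) → ℝ, LipschitzWith 1 g → (∀ x, |g x| ≤ 1) →
      ∫ x, g x * rg f x = ∫ y in orth n, g ((G * O) *ᵥ y + β) * Real.exp (-∑ i, y i) := by
    intro g hg hb
    have h3 := H g hg hb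
    unfold R304.Ef at h3
    rw [hN.one, div_one] at h3
    rw [h3, ← gauss_exp hO fun y => g ((G * O) *ᵥ y + β)]
    simp only [T0, mulVec_mulVec]
  have hW := det_ne hN.lc hN.one H2
  set W := G * O
  have hU : IsUnit W.det := isUnit_iff_ne_zero.2 hW
  have hA : W⁻¹.det ≠ 0 := (isUnit_nonsing_inv_det W hU).ne_zero
  refine ⟨W⁻¹, -(W⁻¹ *ᵥ β), hA, (rg_ae h).symm.trans ?_⟩
  refine ae_of_lip (integrable_of_one hN.one) (integrable_of_one (exp_one hA _)) fun g hg hb => ?_
  rw [H2 g hg hb, ← int_exp hA (-(W⁻¹ *ᵥ β)) fun y => g (W *ᵥ y + β)]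
  simp only [mulVec_add, mulVec_neg, mulVec_mulVec, mul_nonsing_inv _ hU, one_mulVec,
    neg_add_cancel_right]

theorem ent_of_exp (he : IsExpAffine f) : n + 1 / 2 * Real.log (cov f).det = entropy f := by
  obtain ⟨A, b, hA, he⟩ := he
  rw [cov_congr he, entropy_congr he, logdet_exp hA, entropy_exp hA, sub_eq_add_neg]

end Vale.Agent.N254
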