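import Vale.Agent.N254.Id

/-! P254, functional form: Renyi entropies and the supremum. -/

set_option linter.all false

open MeasureTheory Set Filter Topology Matrix

namespace Vale.Agent.N254

open Vale.Agent.P254 Vale.Agent.P254Z.Eq
open Vale.Agent.P254.H375 hiding EE GG

variable {n : ℕ} {f : (Fin n → ℝ) → ℝ}

theorem int_pow (h : Nice f) {p : ℝ} (hp : 0 < p) : Integrable fun x => f x ^ p := by
  obtain ⟨M, a, hM, hg⟩ := h.lc.good h.one
  have h2 := R304.poly_bound_integrable (a * p) (M ^ p) (mul_pos hg.ha hp) (R304.pg_one (n := n))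
    (f := fun x => f x ^ p) (h.meas.pow_const p).aestronglyMeasurable
    (fun x => Real.rpow_nonneg (h.lc.1 x) _) fun x => by
      refine (Real.rpow_le_rpow (h.lc.1 x) (hg.le x) hp.le).trans (le_of_eq ?_)
      rw [Real.mul_rpow hM (Real.exp_pos _).le, ← Real.exp_mul]
      congr 2
      ring
  simpa using h2

theorem jensen_pow (h : Nice f) {p : ℝ} (hp : 0 < p) :
    Real.exp ((1 - p) * entropy f) ≤ ∫ x, f x ^ p := by
  have hi := integrable_of_one h.one
  have hl := integrable_flog h.lc h.one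
  set c := Real.exp ((1 - p) * entropy f) with hc
  have e1 : c = ∫ x, (c * (1 - (1 - p) * entropy f) * f x
      - c * (1 - p) * (f x * Real.log (f x))) := by
    rw [integral_sub (hi.const_mul _) (hl.const_mul _), integral_const_mul, integral_const_mul, h.one]
    unfold entropy
    ring
  rw [e1]
  refine integral_mono ((hi.const_mul _).sub (hl.const_mul _)) (int_pow h hp) fun x => ?_
  simp only
  rcases (h.lc.1 x).eq_or_lt with h0 | h0
  · rw [← h0]
    simp only [mul_zero, zero_mul, sub_zero]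
    exact Real.rpow_nonneg le_rfl _
  · have e2 : f x ^ p = c * f x * Real.exp (-((1 - p) * entropy f) - (1 - p) * Real.log (f x)) := by
      rw [Real.rpow_def_of_pos h0, hc]
      nth_rewrite 2 [← Real.exp_log h0]
      rw [← Real.exp_add, ← Real.exp_add]
      congr 1
      ring
    rw [e2]
    have h3 := Real.add_one_le_exp (-((1 - p) * entropy f) - (1 - p) * Real.log (f x))
    have h4 := mul_le_mul_of_nonneg_left h3 (mul_pos (Real.exp_pos ((1 - p) * entropy f)) h0).le
    rw [← hc] at h4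
    linarith

theorem pl_pow (h : Nice f) {r q s t : ℝ} (hr : 0 < r) (hq : 0 < q) (hs : 0 < s) (ht : 0 < t)
    (hst : s + t = 1) (h1 : s * r + t * q = 1) :
    (r ^ n * ∫ x, f x ^ r) ^ s * (q ^ n * ∫ x, f x ^ q) ^ t ≤ 1 := by
  have hm : ∀ p : ℝ, Measurable fun x => ENNReal.ofReal (f (p⁻¹ • x) ^ p) := fun p =>
    ((h.meas.comp (measurable_const_smul p⁻¹)).pow_const p).ennreal_ofReal
  have hI : ∀ p : ℝ, 0 < p → ∫⁻ x, ENNReal.ofReal (f (p⁻¹ • x) ^ p)
      = ENNReal.ofReal (p ^ n * ∫ x, f x ^ p) := fun p hp => by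
    rw [← ofReal_integral_eq_lintegral_ofReal ((int_pow h hp).comp_smul (inv_pos.2 hp).ne')
      (ae_of_all _ fun x => Real.rpow_nonneg (h.lc.1 _) _),
      Measure.integral_comp_inv_smul_of_nonneg volume (fun x => f x ^ p) hp.le,
      Module.finrank_fin_fun, smul_eq_mul]
  have hn : ∀ p : ℝ, 0 < p → 0 ≤ p ^ n * ∫ x, f x ^ p := fun p hp =>
    mul_nonneg (pow_pos hp n).le (integral_nonneg fun x => Real.rpow_nonneg (h.lc.1 _) _)
  have h2 := Vale.Agent.P227.pl_pi hs ht hst n _ _ (fun x => ENNReal.ofReal (f x)) (hm r) (hm q)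
    h.meas.ennreal_ofReal fun x y => by
      have h3 := h.lc.2 (r⁻¹ • x) (q⁻¹ • y) (t * q) ⟨by positivity, by nlinarith [mul_pos hs hr]⟩
      rw [show 1 - t * q = s * r by linarith, smul_smul, smul_smul, mul_inv_cancel_right₀ hr.ne',
        mul_inv_cancel_right₀ hq.ne'] at h3
      rw [ENNReal.ofReal_rpow_of_nonneg (Real.rpow_nonneg (h.lc.1 _) _) hs.le,
        ENNReal.ofReal_rpow_of_nonneg (Real.rpow_nonneg (h.lc.1 _) _) ht.le,
        ← ENNReal.ofReal_mul (Real.rpow_nonneg (Real.rpow_nonneg (h.lc.1 _) _) _),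
        ← Real.rpow_mul (h.lc.1 _), ← Real.rpow_mul (h.lc.1 _), mul_comm r, mul_comm q]
      exact ENNReal.ofReal_le_ofReal h3
  rw [hI r hr, hI q hq, ← ofReal_integral_eq_lintegral_ofReal (integrable_of_one h.one)
    (ae_of_all _ h.lc.1), h.one, ENNReal.ofReal_rpow_of_nonneg (hn r hr) hs.le,
    ENNReal.ofReal_rpow_of_nonneg (hn q hq) ht.le,
    ← ENNReal.ofReal_mul (Real.rpow_nonneg (hn r hr) _)] at h2
  exact (ENNReal.ofReal_le_ofReal_iff zero_le_one).1 h2

theorem renyi_ge (h : Nice f) {q : ℝ} (hq : 1 < q) :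
    entropy f - n + n * Real.log q / (q - 1) ≤ renyi q f := by
  have hq0 : 0 < q := by linarith
  have hp : ∀ p : ℝ, 0 < p → 0 < ∫ x, f x ^ p := fun p hp =>
    (Real.exp_pos _).trans_le (jensen_pow h hp)
  have h1 : ∀ r : ℝ, 0 < r → r < 1 →
      (q - 1) * (entropy f - n * r⁻¹) + n * Real.log q + Real.log (∫ x, f x ^ q) ≤ 0 := by
    intro r hr hr1
    have hd : 0 < q - r := by linarith
    have h2 := pl_pow h (s := (q - 1) / (q - r)) (t := (1 - r) / (q - r)) hr hq0
      (div_pos (by linarith) hd) (div_pos (by linarith) hd) (by field_simp; ring) (by field_simp; ring)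
    have a1 := mul_pos (pow_pos hr n) (hp r hr)
    have a2 := mul_pos (pow_pos hq0 n) (hp q hq0)
    have h3 := Real.log_nonpos (by positivity) h2
    rw [Real.log_mul (by positivity) (by positivity), Real.log_rpow a1, Real.log_rpow a2,
      Real.log_mul (by positivity) (hp r hr).ne', Real.log_mul (by positivity) (hp q hq0).ne',
      Real.log_pow, Real.log_pow, div_mul_eq_mul_div, div_mul_eq_mul_div, ← add_div,
      div_nonpos_iff] at h3
    have h4 := (h3.resolve_left fun h => absurd h.2 (not_le.2 hd)).1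
    have h5 := (Real.le_log_iff_exp_le (hp r hr)).2 (jensen_pow h hr)
    have h6 := Real.one_sub_inv_le_log_of_pos hr
    have h7 : 1 - r⁻¹ = -((1 - r) * r⁻¹) := by field_simp; ring
    have h8 : (1 - r) * (entropy f - n * r⁻¹) ≤ n * Real.log r + Real.log (∫ x, f x ^ r) := by
      have := mul_le_mul_of_nonneg_left h6 (Nat.cast_nonneg (α := ℝ) n)
      rw [h7] at this
      linarith
    have h9 := mul_le_mul_of_nonneg_left h8 (by linarith : 0 ≤ q - 1)
    refine le_of_mul_le_mul_left ?_ (by linarith : 0 < 1 - r)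
    linarith
  have h2 : Tendsto (fun r : ℝ => (q - 1) * (entropy f - n * r⁻¹) + n * Real.log q
      + Real.log (∫ x, f x ^ q)) (𝓝[<] 1) (𝓝 ((q - 1) * (entropy f - n * (1 : ℝ)⁻¹) + n * Real.log q
      + Real.log (∫ x, f x ^ q))) := by
    refine Tendsto.mono_left ?_ nhdsWithin_le_nhds
    exact ((((tendsto_inv₀ one_ne_zero).const_mul _).const_sub _).const_mul _ |>.add_const _).add_const _
  have h3 := le_of_tendsto h2 (by
    filter_upwards [Ioo_mem_nhdsLT zero_lt_one] with r hr using h1 r hr.1 hr.2)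
  have h4 : 0 < q - 1 := by linarith
  unfold renyi
  rw [inv_one, mul_one] at h3
  rw [← neg_sub q 1, div_neg, ← neg_div, le_div_iff₀ h4, add_mul, div_mul_cancel₀ _ h4.ne']
  linarith

theorem renyi_main (hM : StmtMargin) (h : LogConcave f) (h1 : ∫ x, f x = 1) {q : ℝ} (hq : 1 < q) :
    n * Real.log q / (q - 1) + 1 / 2 * Real.log (cov f).det ≤ renyi q f ∧
      (n * Real.log q / (q - 1) + 1 / 2 * Real.log (cov f).det = renyi q f ↔ IsExpAffine f) := by
  have h2 := renyi_ge (nice_rg h h1) hq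
  have e : renyi q (rg f) = renyi q f := by
    unfold renyi
    rw [pow_congr (rg_ae h)]
  rw [e, entropy_congr (rg_ae h)] at h2
  refine ⟨by linarith [ent_ge hM h h1], fun he => ent_eq hM h h1 (by linarith), ?_⟩
  rintro ⟨A, b, hA, he⟩
  have h4 : 0 < q - 1 := by linarith
  have hq0 : 0 < q := by linarith
  have hd : 0 < |A.det| := abs_pos.2 hA
  unfold renyi
  rw [pow_congr he, cov_congr he, logdet_exp hA, pow_exp hA b hq0,
    Real.log_mul (by positivity) (by positivity), Real.log_rpow hd, Real.log_inv, Real.log_pow,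
    ← neg_sub q 1]
  field_simp
  ring

theorem sup_main (hM : StmtMargin) (h : LogConcave f) (h1 : ∫ x, f x = 1) :
    BddAbove (range f) ∧ (⨆ x, f x) * √(cov f).det ≤ 1 ∧
      ((⨆ x, f x) * √(cov f).det = 1 ↔ IsExpAffine f) := by
  have hd := (cov_posDef h h1).det_pos
  have hs : 0 < √(cov f).det := Real.sqrt_pos.2 hd
  obtain ⟨M, hM0⟩ := h.exists_upper h1
  have hb : BddAbove (range f) := ⟨M, forall_mem_range.2 hM0⟩
  have h2 : ∀ x, f x ≤ Real.exp (n - entropy f) := fun x => by
    rcases (h.1 x).eq_or_lt with h0 | h0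
    · rw [← h0]
      exact (Real.exp_pos _).le
    · rw [← Real.log_le_iff_le_exp h0]
      linarith [entropy_add_log_le h h1 h0]
  have h3 : (⨆ x, f x) * √(cov f).det
      ≤ Real.exp (n + 1 / 2 * Real.log (cov f).det - entropy f) := by
    refine (mul_le_mul_of_nonneg_right (ciSup_le h2) hs.le).trans (le_of_eq ?_)
    rw [← Real.exp_log hs, Real.log_sqrt hd.le, ← Real.exp_add]
    congr 1
    ring
  have h4 : (⨆ x, f x) * √(cov f).det ≤ 1 :=
    h3.trans (Real.exp_le_one_iff.2 (by linarith [ent_ge hM h h1]))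
  refine ⟨hb, h4, fun he => ent_eq hM h h1 ?_, ?_⟩
  · rw [he, Real.one_le_exp_iff] at h3
    linarith
  · rintro ⟨A, b, hA, he⟩
    refine le_antisymm h4 ?_
    have h5 : |A.det| ≤ ⨆ x, f x := det_le_of_ae hA b (he.mono fun x hx => hx ▸ le_ciSup hb x)
    have h6 : |A.det| * √(cov f).det = 1 := by
      have h7 := logdet_exp hA b
      rw [← cov_congr he] at h7
      rw [← Real.exp_log hs, Real.log_sqrt hd.le, ← Real.exp_log (abs_pos.2 hA), ← Real.exp_add,
        Real.exp_eq_one_iff]
      linarith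
    exact h6.ge.trans (mul_le_mul_of_nonneg_right h5 hs.le)

end Vale.Agent.N254
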