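import Vale.Agent.N254.Defs
import Vale.Agent.P254Z.Eq.Final

/-! P254: the second moment of the volume of a random simplex in a convex body. -/

set_option linter.all false

open MeasureTheory Set Matrix

namespace Vale.Agent.N254

open Vale.Agent.P254

variable {n : ℕ} {K : Set (Fin n → ℝ)}

theorem andreief {N : ℕ} {X : Type*} [MeasurableSpace X] (μ : Measure X) [SigmaFinite μ]
    (φ : Fin N → X → ℝ) (hφ : ∀ i j, Integrable (fun x => φ i x * φ j x) μ) :
    ∫ x : Fin N → X, (of fun i k => φ i (x k)).det ^ 2 ∂(Measure.pi fun _ => μ)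
      = N.factorial * (of fun i j => ∫ x, φ i x * φ j x ∂μ).det := by
  set G : Matrix (Fin N) (Fin N) ℝ := of fun i j => ∫ x, φ i x * φ j x ∂μ with hG
  have e : ∀ x : Fin N → X, (of fun i k => φ i (x k)).det ^ 2
      = ∑ τ : Equiv.Perm (Fin N), ∑ σ : Equiv.Perm (Fin N), ((Equiv.Perm.sign τ : ℤ) : ℝ)
        * (((Equiv.Perm.sign σ : ℤ) : ℝ) * ∏ k, φ (σ k) (x k) * φ (τ k) (x k)) := fun x => by
    rw [sq, det_apply', Finset.sum_mul_sum]
    refine Finset.sum_congr rfl fun τ _ => Finset.sum_congr rfl fun σ _ => ?_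
    simp only [of_apply, Finset.prod_mul_distrib]
    ring
  have hi : ∀ σ τ : Equiv.Perm (Fin N), Integrable
      (fun x : Fin N → X => ∏ k, φ (σ k) (x k) * φ (τ k) (x k)) (Measure.pi fun _ => μ) :=
    fun σ τ => Integrable.fintype_prod (f := fun k x => φ (σ k) x * φ (τ k) x) fun k => hφ _ _
  simp only [e]
  rw [integral_finsetSum _ fun τ _ => integrable_finsetSum _ fun σ _ =>
    ((hi σ τ).const_mul _).const_mul _]
  have e2 : ∀ τ : Equiv.Perm (Fin N), ∫ x : Fin N → X, ∑ σ : Equiv.Perm (Fin N),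
      ((Equiv.Perm.sign τ : ℤ) : ℝ) * (((Equiv.Perm.sign σ : ℤ) : ℝ)
        * ∏ k, φ (σ k) (x k) * φ (τ k) (x k)) ∂(Measure.pi fun _ => μ) = G.det := fun τ => by
    rw [integral_finsetSum _ fun σ _ => ((hi σ τ).const_mul _).const_mul _]
    have h0 : ∀ σ : Equiv.Perm (Fin N), ∫ x : Fin N → X, ∏ k, φ (σ k) (x k) * φ (τ k) (x k)
        ∂(Measure.pi fun _ => μ) = ∏ i, G.submatrix id τ (σ i) i := fun σ =>
      integral_fintype_prod_eq_prod fun k x => φ (σ k) x * φ (τ k) x
    simp only [integral_const_mul, h0]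
    have h1 := det_permute' τ G
    rw [det_apply'] at h1
    rw [← Finset.mul_sum, h1, ← mul_assoc, ← Int.cast_mul, ← Units.val_mul, Int.units_mul_self]
    simp
  simp only [e2]
  simp [Fintype.card_perm]

theorem vol_aff (A : Matrix (Fin n) (Fin n) ℝ) (b : Fin n → ℝ) (s : Set (Fin n → ℝ)) :
    (volume (aff A b '' s)).toReal = |A.det| * (volume s).toReal := by
  have e : aff A b '' s = (fun y => y + b) '' (toLin' A '' s) := by
    rw [image_image]
    rfl
  rw [e, image_add_right, measure_preimage_add_right, Measure.addHaar_image_linearMap,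
    ENNReal.toReal_mul, ENNReal.toReal_ofReal (abs_nonneg _), LinearMap.det_toLin']

theorem vol_hull (c : Fin n → ℝ) (v : Fin (n + 1) → Fin n → ℝ) :
    (volume (convexHull ℝ (range v))).toReal ^ 2 = (of fun i k =>
      (Fin.cons 1 (v k - c) : Fin (n + 1) → ℝ) i).det ^ 2 / (n.factorial : ℝ) ^ 2 := by
  set A : Matrix (Fin n) (Fin n) ℝ := of fun i k => v k.succ i - v 0 i with hA
  have e : (fun i => aff A (v 0) (stdV n i)) = v := by
    ext i j
    refine Fin.cases ?_ (fun k => ?_) i
    · simp [stdV_zero, aff]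
    · rw [stdV_succ, aff_apply]
      simp [hA, Pi.single_apply]
  have h1 := image_stdS A (v 0)
  rw [e] at h1
  have h2 : (of fun i k => (Fin.cons 1 (v k - c) : Fin (n + 1) → ℝ) i).det = A.det := by
    rw [← det_transpose, det_eq_of_forall_row_eq_smul_add_const
      (B := of fun k i => (Fin.cons (Fin.cons 1 (v 0 - c))
        (fun k => Fin.cons 0 (v k.succ - v 0)) : Fin (n + 1) → Fin (n + 1) → ℝ) k i)
      (Fin.cons 0 fun _ => 1) 0 rfl, det_succ_column_zero, Fin.sum_univ_succ, ← det_transpose A]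
    · simp only [of_apply, Fin.cons_zero, Fin.cons_succ, mul_zero, zero_mul, Finset.sum_const_zero,
        add_zero, Fin.val_zero, pow_zero, one_mul, Fin.succAbove_zero]
      rfl
    · intro k i
      refine Fin.cases ?_ (fun k => ?_) k
      · simp
      · refine Fin.cases ?_ (fun i => ?_) i <;> simp
  rw [← h1, vol_aff, volume_stdS, h2, mul_one_div, div_pow, sq_abs]

theorem moment_eq (hK : IsConvexBody K) : simplexMoment K
    = (n + 1).factorial / (n.factorial : ℝ) ^ 2 * ((covMatrix K).det / (volume K).toReal ^ 2) := by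
  have hV := K468.volume_pos_of_body hK
  have hc := hK.2.1
  set φ : Fin (n + 1) → (Fin n → ℝ) → ℝ :=
    fun i x => (Fin.cons 1 (x - centroid K) : Fin (n + 1) → ℝ) i with hφ
  have hc1 : ∀ i, Continuous (φ i) := fun i => by
    refine Fin.cases ?_ (fun i => ?_) i
    · exact continuous_const
    · exact (continuous_apply i).sub continuous_const
  have h1 := andreief (volume.restrict K) φ fun i j => intOn hc ((hc1 i).mul (hc1 j))
  have h2 : (of fun i j => ∫ x in K, φ i x * φ j x).det
      = (volume K).toReal ^ (n + 1) * (covMatrix K).det := by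
    have a1 : ∀ j : Fin n, ∫ x in K, φ 0 x * φ j.succ x = 0 := fun j => by
      simp only [hφ, Fin.cons_zero, Fin.cons_succ, one_mul, Pi.sub_apply]
      rw [integral_sub (intOn hc (continuous_apply j)) (intOn hc continuous_const), setIntegral_const,
        Measure.real, smul_eq_mul, centroid, mul_inv_cancel_left₀ hV.ne', sub_self]
    have a2 : (of fun i j => ∫ x in K, φ i x * φ j x).submatrix Fin.succ Fin.succ
        = (volume K).toReal • covMatrix K := by
      ext i j
      rw [Matrix.smul_apply, smul_eq_mul, covMatrix, mul_inv_cancel_left₀ hV.ne']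
      rfl
    rw [det_succ_row_zero, Fin.sum_univ_succ]
    simp only [of_apply, a1, mul_zero, zero_mul, Finset.sum_const_zero, add_zero, Fin.val_zero,
      pow_zero, one_mul, Fin.succAbove_zero, a2, det_smul, Fintype.card_fin]
    simp only [hφ, Fin.cons_zero, mul_one, setIntegral_const, Measure.real, smul_eq_mul]
    ring
  unfold simplexMoment
  simp only [vol_hull (centroid K)]
  rw [integral_div, volume_pi, Measure.restrict_pi_pi, h1, h2]
  field_simp

theorem syl_main (hn : 1 ≤ n) (hK : IsConvexBody K)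
    (H : isoConst K ≤ isoConst (stdS n) ∧ (isoConst K = isoConst (stdS n) ↔ IsSimplex K)) :
    simplexMoment K ≤ n.factorial / (((n : ℝ) + 1) * (n + 2)) ^ n ∧
      (simplexMoment K = n.factorial / (((n : ℝ) + 1) * (n + 2)) ^ n ↔ IsSimplex K) := by
  have hf : (0 : ℝ) < n.factorial := by positivity
  have hp : (0 : ℝ) < (n + 1).factorial / (n.factorial : ℝ) ^ 2 := by positivity
  have e : n.factorial / (((n : ℝ) + 1) * (n + 2)) ^ n = (n + 1).factorial / (n.factorial : ℝ) ^ 2
      * ((covMatrix (stdS n)).det / (volume (stdS n)).toReal ^ 2) := by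
    rw [K468.ratio_stdS, Nat.factorial_succ]
    push_cast
    field_simp
  have h1 : 0 ≤ (covMatrix K).det / (volume K).toReal ^ 2 :=
    div_nonneg (K468.det_cov_nonneg hK.2.1) (sq_nonneg _)
  have h2 : 0 ≤ (covMatrix (stdS n)).det / (volume (stdS n)).toReal ^ 2 :=
    div_nonneg (K468.det_cov_nonneg isCompact_stdS) (sq_nonneg _)
  have h3 : (0 : ℝ) < 1 / (2 * (n : ℝ)) := by positivity
  unfold isoConst at H
  rw [Real.rpow_le_rpow_iff h1 h2 h3, Real.rpow_left_inj h1 h2 h3.ne'] at H
  rw [moment_eq hK, e, mul_le_mul_iff_right₀ hp, mul_right_inj' hp.ne']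
  exact H

end Vale.Agent.N254
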